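import Vale.Agent.P146.H773.Def
import Vale.Agent.P146.H785.Hes

/-!
# P146: the concavity of the functional of one window in its length, last step

(i) the gauge symmetry of the SK family exchanges any two configurations; (ii) the inequality for
the Hessian of the layer functional is a combination of the two inequalities for a pair of planted
replicas, in the same completion and in two different completions.
-/

open MeasureTheory ProbabilityTheory

namespace Vale.Agent.P146.H533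

open Vale.Agent.P157.Lv Vale.Agent.P146.H425
open Vale.Agent.P146.H325 (SkS)
open Vale.Agent.P146.H785 (C2 HW Ax Ax_meas Ax_abs_le)

/-! ### (i) the exchange of two configurations -/

lemma sp_mul {n : ℕ} (ρ σ : Fin n → ℤˣ) (i : Fin n) :
    H325.sp (ρ * σ) i = H325.sp ρ i * H325.sp σ i := by
  simp [H325.sp, Pi.mul_apply]

/-- Any two configurations of the SK family are exchanged by a change of signs. -/
theorem swp_sk {n : ℕ} : H773.Swp (SkS (n := n)) := by
  intro ρ τ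
  have hsq : ∀ υ : Fin n → ℤˣ, υ * υ = 1 := by
    intro υ
    funext i
    exact Int.units_mul_self (υ i)
  refine ⟨fun e => SkS e (ρ * τ), Equiv.mulLeft (ρ * τ), ?_, ?_, ?_, ?_⟩
  · intro e
    have h : SkS e (ρ * τ) * SkS e (ρ * τ) = 1 := by
      have h1 := H325.sp_mul_self (ρ * τ) e.1.1
      have h2 := H325.sp_mul_self (ρ * τ) e.1.2
      show H325.sp (ρ * τ) e.1.1 * H325.sp (ρ * τ) e.1.2 *
        (H325.sp (ρ * τ) e.1.1 * H325.sp (ρ * τ) e.1.2) = 1
      calc _ = H325.sp (ρ * τ) e.1.1 * H325.sp (ρ * τ) e.1.1 *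
            (H325.sp (ρ * τ) e.1.2 * H325.sp (ρ * τ) e.1.2) := by ring
        _ = 1 := by rw [h1, h2, one_mul]
    exact mul_self_eq_one_iff.mp h
  · intro e σ
    show H325.sp (ρ * τ * σ) e.1.1 * H325.sp (ρ * τ * σ) e.1.2 =
      H325.sp (ρ * τ) e.1.1 * H325.sp (ρ * τ) e.1.2 * (H325.sp σ e.1.1 * H325.sp σ e.1.2)
    rw [sp_mul (ρ * τ) σ, sp_mul (ρ * τ) σ]
    ring
  · show ρ * τ * ρ = τ
    rw [mul_comm ρ τ, mul_assoc, hsq, mul_one]
  · show ρ * τ * τ = ρ
    rw [mul_assoc, hsq, mul_one]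

/-! ### (ii) the combination -/

variable {κ : Type} [Fintype κ] {F : (κ → ℝ) → ℝ} {D : κ → (κ → ℝ) → ℝ}
  {HF : κ → κ → (κ → ℝ) → ℝ} {B L B2 : ℝ}

/-- bounded measurable functions of the base position -/
lemma eg_ax (h : C11 F D B L) {φ : (κ → ℝ) → ℝ} {C : ℝ} (hm : Measurable φ)
    (hC : ∀ u, |φ u| ≤ C) (x s c : ℝ) : EG fun z => Ax x s F φ (c • z) := by
  refine EG.of_bdd (C := C) ?_ fun z => Ax_abs_le h.lip h.B0 hm hC x s (c • z)
  exact (Ax_meas h.lip h.B0 (EG.of_bdd hm hC) x s).comp (measurable_id.const_smul c)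

omit [Fintype κ] in
/-- a linear combination of six integrals -/
lemma comb {μ : Measure (κ → ℝ)} {f1 f2 f3 f4 f5 f6 : (κ → ℝ) → ℝ} {x : ℝ}
    (i1 : Integrable f1 μ) (i2 : Integrable f2 μ) (i3 : Integrable f3 μ) (i4 : Integrable f4 μ)
    (i5 : Integrable f5 μ) (i6 : Integrable f6 μ)
    (hid : ∀ z, f6 z - 2 * x * f5 z =
      1 / 2 * (f4 z - f3 z) + (1 - x) / 2 * (f2 z - x * f1 z)) :
    ∫ z, f6 z ∂μ - 2 * x * ∫ z, f5 z ∂μ =
      1 / 2 * (∫ z, f4 z ∂μ - ∫ z, f3 z ∂μ) +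
        (1 - x) / 2 * (∫ z, f2 z ∂μ - x * ∫ z, f1 z ∂μ) := by
  have e1 : ∫ z, (f6 z - 2 * x * f5 z) ∂μ = ∫ z, f6 z ∂μ - 2 * x * ∫ z, f5 z ∂μ := by
    rw [integral_sub i6 (i5.const_mul _), integral_const_mul]
  have j1 : Integrable (fun z => 1 / 2 * (f4 z - f3 z)) μ := (i4.sub i3).const_mul _
  have j2 : Integrable (fun z => (1 - x) / 2 * (f2 z - x * f1 z)) μ :=
    (i2.sub (i1.const_mul _)).const_mul _
  have e2 : ∫ z, (1 / 2 * (f4 z - f3 z) + (1 - x) / 2 * (f2 z - x * f1 z)) ∂μ =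
      1 / 2 * (∫ z, f4 z ∂μ - ∫ z, f3 z ∂μ) +
        (1 - x) / 2 * (∫ z, f2 z ∂μ - x * ∫ z, f1 z ∂μ) := by
    rw [integral_add j1 j2, integral_const_mul, integral_const_mul, integral_sub i4 i3,
      integral_sub i2 (i1.const_mul _), integral_const_mul]
  rw [← e1, ← e2]
  exact integral_congr_ae (Filter.Eventually.of_forall hid)

/-- The two inequalities for planted replicas give the inequality for the Hessian of the layer
functional. -/
theorem tt_of (h : C2 F D HF B L B2) {x s : ℝ} (hx1 : x ≤ 1)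
    (hb : x * ∫ z, ∑ e, ∑ f, DW x (√s) F D e (√(1 - s) • z) *
        Ax x (√s) F (HF e f) (√(1 - s) • z) * DW x (√s) F D f (√(1 - s) • z) ∂(gI κ) ≤
      ∫ z, ∑ e, ∑ f, HW x (√s) F D HF e f (√(1 - s) • z) *
        Ax x (√s) F (HF e f) (√(1 - s) • z) ∂(gI κ))
    (hc : ∫ z, ∑ e, ∑ f, (4 * x * (DW x (√s) F D e (√(1 - s) • z) *
          DW x (√s) F D f (√(1 - s) • z) * Ax x (√s) F (HF e f) (√(1 - s) • z)) +
        4 * x ^ 2 * (DW x (√s) F D e (√(1 - s) • z) * DW x (√s) F D f (√(1 - s) • z) *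
          (Ax x (√s) F (fun u => D e u * D f u) (√(1 - s) • z) -
            DW x (√s) F D e (√(1 - s) • z) * DW x (√s) F D f (√(1 - s) • z)))) ∂(gI κ) ≤
      ∫ z, ∑ e, ∑ f, ((1 - x) * Ax x (√s) F (HF e f) (√(1 - s) • z) ^ 2 +
        x * (1 - x) * (Ax x (√s) F (HF e f) (√(1 - s) • z) *
          Ax x (√s) F (fun u => D e u * D f u) (√(1 - s) • z)) +
        2 * x * (HW x (√s) F D HF e f (√(1 - s) • z) *
          (Ax x (√s) F (HF e f) (√(1 - s) • z) +
            Ax x (√s) F (fun u => D e u * D f u) (√(1 - s) • z) -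
            DW x (√s) F D e (√(1 - s) • z) * DW x (√s) F D f (√(1 - s) • z)))) ∂(gI κ)) :
    2 * x * ∫ z, ∑ e, ∑ f, DW x (√s) F D e (√(1 - s) • z) *
        HW x (√s) F D HF e f (√(1 - s) • z) * DW x (√s) F D f (√(1 - s) • z) ∂(gI κ) ≤
      ∫ z, ∑ e, ∑ f, HW x (√s) F D HF e f (√(1 - s) • z) ^ 2 ∂(gI κ) := by
  set v : κ → (κ → ℝ) → ℝ := fun e z => DW x (√s) F D e (√(1 - s) • z) with hv
  set C : κ → κ → (κ → ℝ) → ℝ := fun e f z => Ax x (√s) F (HF e f) (√(1 - s) • z) with hC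
  set P : κ → κ → (κ → ℝ) → ℝ := fun e f z =>
    Ax x (√s) F (fun u => D e u * D f u) (√(1 - s) • z) with hP
  set H : κ → κ → (κ → ℝ) → ℝ := fun e f z => HW x (√s) F D HF e f (√(1 - s) • z) with hH
  have hHe : ∀ e f z, H e f z = C e f z + x * (P e f z - v e z * v f z) := fun e f z => rfl
  have ev : ∀ e, EG (v e) := fun e => eg_ax h.c1 (h.c1.meas e) (h.c1.bd e) x _ _
  have eC : ∀ e f, EG (C e f) := fun e f => eg_ax h.c1 (h.meas e f) (h.bd e f) x _ _
  have eP : ∀ e f, EG (P e f) := fun e f =>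
    eg_ax h.c1 (C := B * B) ((h.c1.meas e).mul (h.c1.meas f)) (fun u => by
      show |D e u * D f u| ≤ B * B
      rw [abs_mul]
      exact mul_le_mul (h.c1.bd e u) (h.c1.bd f u) (abs_nonneg _) h.c1.B0) x _ _
  have eH : ∀ e f, EG (H e f) := fun e f =>
    (eC e f).add (((eP e f).sub ((ev e).mul (ev f))).const_mul x)
  have hb' : x * ∫ z, ∑ e, ∑ f, v e z * C e f z * v f z ∂(gI κ) ≤
      ∫ z, ∑ e, ∑ f, H e f z * C e f z ∂(gI κ) := hb
  have hc' : ∫ z, ∑ e, ∑ f, (4 * x * (v e z * v f z * C e f z) +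
        4 * x ^ 2 * (v e z * v f z * (P e f z - v e z * v f z))) ∂(gI κ) ≤
      ∫ z, ∑ e, ∑ f, ((1 - x) * C e f z ^ 2 + x * (1 - x) * (C e f z * P e f z) +
        2 * x * (H e f z * (C e f z + P e f z - v e z * v f z))) ∂(gI κ) := hc
  show 2 * x * ∫ z, ∑ e, ∑ f, v e z * H e f z * v f z ∂(gI κ) ≤
    ∫ z, ∑ e, ∑ f, H e f z ^ 2 ∂(gI κ)
  -- integrability of the six sums
  have i1 : Integrable (fun z => ∑ e, ∑ f, v e z * C e f z * v f z) (gI κ) :=
    (EG.sum _ fun e _ => EG.sum _ fun f _ => ((ev e).mul (eC e f)).mul (ev f)).integrable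
  have i2 : Integrable (fun z => ∑ e, ∑ f, H e f z * C e f z) (gI κ) :=
    (EG.sum _ fun e _ => EG.sum _ fun f _ => (eH e f).mul (eC e f)).integrable
  have i3 : Integrable (fun z => ∑ e, ∑ f, (4 * x * (v e z * v f z * C e f z) +
        4 * x ^ 2 * (v e z * v f z * (P e f z - v e z * v f z)))) (gI κ) :=
    (EG.sum _ fun e _ => EG.sum _ fun f _ =>
      ((((ev e).mul (ev f)).mul (eC e f)).const_mul (4 * x)).add
        ((((ev e).mul (ev f)).mul ((eP e f).sub ((ev e).mul (ev f)))).const_mul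
          (4 * x ^ 2))).integrable
  have i4 : Integrable (fun z => ∑ e, ∑ f, ((1 - x) * C e f z ^ 2 +
        x * (1 - x) * (C e f z * P e f z) +
        2 * x * (H e f z * (C e f z + P e f z - v e z * v f z)))) (gI κ) :=
    (EG.sum _ fun e _ => EG.sum _ fun f _ =>
      ((((eC e f).pow 2).const_mul (1 - x)).add
        (((eC e f).mul (eP e f)).const_mul (x * (1 - x)))).add
        (((eH e f).mul (((eC e f).add (eP e f)).sub ((ev e).mul (ev f)))).const_mul
          (2 * x))).integrable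
  have i5 : Integrable (fun z => ∑ e, ∑ f, v e z * H e f z * v f z) (gI κ) :=
    (EG.sum _ fun e _ => EG.sum _ fun f _ => ((ev e).mul (eH e f)).mul (ev f)).integrable
  have i6 : Integrable (fun z => ∑ e, ∑ f, H e f z ^ 2) (gI κ) :=
    (EG.sum _ fun e _ => EG.sum _ fun f _ => (eH e f).pow 2).integrable
  -- the identity
  have key : ∫ z, ∑ e, ∑ f, H e f z ^ 2 ∂(gI κ) -
      2 * x * ∫ z, ∑ e, ∑ f, v e z * H e f z * v f z ∂(gI κ) =
      1 / 2 * (∫ z, ∑ e, ∑ f, ((1 - x) * C e f z ^ 2 + x * (1 - x) * (C e f z * P e f z) +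
          2 * x * (H e f z * (C e f z + P e f z - v e z * v f z))) ∂(gI κ) -
        ∫ z, ∑ e, ∑ f, (4 * x * (v e z * v f z * C e f z) +
          4 * x ^ 2 * (v e z * v f z * (P e f z - v e z * v f z))) ∂(gI κ)) +
      (1 - x) / 2 * (∫ z, ∑ e, ∑ f, H e f z * C e f z ∂(gI κ) -
        x * ∫ z, ∑ e, ∑ f, v e z * C e f z * v f z ∂(gI κ)) := by
    refine comb i1 i2 i3 i4 i5 i6 fun z => ?_
    simp only [Finset.mul_sum, ← Finset.sum_sub_distrib, ← Finset.sum_add_distrib]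
    refine Finset.sum_congr rfl fun e _ => Finset.sum_congr rfl fun f _ => ?_
    rw [hHe e f z]
    ring
  have h1 : 0 ≤ 1 / 2 * (∫ z, ∑ e, ∑ f, ((1 - x) * C e f z ^ 2 +
        x * (1 - x) * (C e f z * P e f z) +
          2 * x * (H e f z * (C e f z + P e f z - v e z * v f z))) ∂(gI κ) -
        ∫ z, ∑ e, ∑ f, (4 * x * (v e z * v f z * C e f z) +
          4 * x ^ 2 * (v e z * v f z * (P e f z - v e z * v f z))) ∂(gI κ)) :=
    mul_nonneg (by norm_num) (sub_nonneg.mpr hc')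
  have h2 : 0 ≤ (1 - x) / 2 * (∫ z, ∑ e, ∑ f, H e f z * C e f z ∂(gI κ) -
        x * ∫ z, ∑ e, ∑ f, v e z * C e f z * v f z ∂(gI κ)) :=
    mul_nonneg (by linarith) (sub_nonneg.mpr hb')
  linarith

end Vale.Agent.P146.H533
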